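import Mathlib

/-!
# P095: pointwise inner actions are equivariantly `D`-stable

Let `A` be a unital C*-algebra with trivial centre (e.g. a simple one), `D` a unital C*-algebra and
`B` a C*-algebra generated by commuting unital copies of `A` and `D` (e.g. `B = A ⊗ D`, any
C*-tensor product).  Let `α` be an action of a group `G` on `A` by inner automorphisms and let `β`
be the action `α ⊗ id_D` on `B`.  If `A ≅ B`, then `α` and `β` are cocycle conjugate.
-/

namespace Vale.Agent.Results.P095.InnerActions

open scoped CStarAlgebra

theorem result
    (G : Type*) [Group G]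
    (A D B : Type*) [CStarAlgebra A] [CStarAlgebra D] [CStarAlgebra B]
    (hcentre : ∀ z : A, (∀ a : A, z * a = a * z) → ∃ c : ℂ, z = algebraMap ℂ A c)
    (ι₁ : A →⋆ₐ[ℂ] B) (ι₂ : D →⋆ₐ[ℂ] B)
    (hcomm : ∀ (a : A) (d : D), ι₁ a * ι₂ d = ι₂ d * ι₁ a)
    (hgen : (StarAlgebra.adjoin ℂ (Set.range ι₁ ∪ Set.range ι₂)).topologicalClosure = ⊤)
    (α : G →* (A ≃⋆ₐ[ℂ] A)) (β : G →* (B ≃⋆ₐ[ℂ] B))
    (hβ₁ : ∀ (g : G) (a : A), β g (ι₁ a) = ι₁ (α g a))
    (hβ₂ : ∀ (g : G) (d : D), β g (ι₂ d) = ι₂ d)
    (hinner : ∀ g : G, ∃ v : unitary A, ∀ a : A, α g a = v * a * star (v : A))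
    (Φ : A ≃⋆ₐ[ℂ] B) :
    ∃ (Ψ : A ≃⋆ₐ[ℂ] B) (u : G → unitary B),
      (∀ g h : G, (u (g * h) : B) = u g * β g (u h)) ∧
      ∀ (g : G) (a : A), Ψ (α g a) = u g * β g (Ψ a) * star (u g : B) := by
  choose v hv using hinner
  -- unitarity facts
  have hvs : ∀ g, star (v g : A) * v g = 1 := fun g => Unitary.star_mul_self_of_mem (v g).2
  have hvs' : ∀ g, (v g : A) * star (v g : A) = 1 := fun g => Unitary.mul_star_self_of_mem (v g).2
  let w : G → B := fun g => ι₁ (v g)
  have hws : ∀ g, star (w g) * w g = 1 := by
    intro g; simp only [w]; rw [← map_star, ← map_mul, hvs, map_one]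
  have hws' : ∀ g, w g * star (w g) = 1 := by
    intro g; simp only [w]; rw [← map_star, ← map_mul, hvs', map_one]
  let x : G → B := fun g => Φ (v g)
  have hxs : ∀ g, star (x g) * x g = 1 := by
    intro g; simp only [x]; rw [← map_star, ← map_mul, hvs, map_one]
  have hxs' : ∀ g, x g * star (x g) = 1 := by
    intro g; simp only [x]; rw [← map_star, ← map_mul, hvs', map_one]
  -- `β g` is conjugation by `w g`
  have hβ : ∀ g b, β g b = w g * b * star (w g) := by
    intro g
    let S : StarSubalgebra ℂ B :=
      { carrier := {b | β g b = w g * b * star (w g)}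
        mul_mem' := by
          intro a b ha hb
          simp only [Set.mem_ofPred_eq] at ha hb ⊢
          rw [map_mul, ha, hb]
          calc w g * a * star (w g) * (w g * b * star (w g))
              = w g * a * (star (w g) * w g) * b * star (w g) := by simp only [mul_assoc]
            _ = w g * (a * b) * star (w g) := by rw [hws]; simp only [mul_one, mul_assoc]
        one_mem' := by
          simp only [Set.mem_ofPred_eq]
          rw [map_one, mul_one, hws']
        add_mem' := by
          intro a b ha hb
          simp only [Set.mem_ofPred_eq] at ha hb ⊢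
          rw [map_add, ha, hb, mul_add, add_mul]
        zero_mem' := by simp
        algebraMap_mem' := by
          intro r
          simp only [Set.mem_ofPred_eq]
          rw [Algebra.algebraMap_eq_smul_one, map_smul, map_one, mul_smul_comm, mul_one,
            smul_mul_assoc, hws']
        star_mem' := by
          intro a ha
          simp only [Set.mem_ofPred_eq] at ha ⊢
          rw [map_star, ha]
          simp only [star_mul, star_star, mul_assoc] }
    have hclosed : IsClosed (S : Set B) := by
      have h1 : Continuous fun b : B => β g b := (StarAlgEquiv.isometry (β g)).continuous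
      have h2 : Continuous fun b : B => w g * b * star (w g) := by fun_prop
      exact isClosed_eq h1 h2
    have hle : StarAlgebra.adjoin ℂ (Set.range ι₁ ∪ Set.range ι₂) ≤ S := by
      apply StarAlgebra.adjoin_le
      rintro _ (⟨a, rfl⟩ | ⟨d, rfl⟩)
      · show β g (ι₁ a) = w g * ι₁ a * star (w g)
        simp only [w]
        rw [hβ₁, hv, map_mul, map_mul, map_star]
      · show β g (ι₂ d) = w g * ι₂ d * star (w g)
        simp only [w]
        rw [hβ₂, hcomm, mul_assoc]
        have := hws' g
        simp only [w] at this
        rw [this, mul_one]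
    have htop : (⊤ : StarSubalgebra ℂ B) ≤ S := by
      rw [← hgen]
      exact StarSubalgebra.topologicalClosure_minimal hle hclosed
    intro b
    exact htop (show b ∈ (⊤ : StarSubalgebra ℂ B) from trivial)
  -- the scalar 2-cocycle
  have hscal : ∀ g h, ∃ c : ℂ, (v g : A) * v h = c • (v (g * h) : A) ∧ c * star c = 1 := by
    intro g h
    set z : A := star (v (g * h) : A) * (v g * v h) with hz
    have hzc : ∀ a : A, z * a = a * z := by
      intro a
      -- `α (g*h) = α g ∘ α h`
      have h1 : ∀ a : A, (v (g * h) : A) * a * star (v (g * h) : A) =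
          v g * (v h * a * star (v h : A)) * star (v g : A) := by
        intro a
        rw [← hv, ← hv, ← hv, map_mul]
        rfl
      have h2 : (v g : A) * v h * a = v (g * h) * a * star (v (g * h) : A) * (v g * v h) := by
        rw [h1]
        calc (v g : A) * v h * a = v g * (v h * a * (star (v h : A) * (star (v g : A) * v g) * v h)) := by
              rw [hvs, mul_one, hvs, mul_one]; simp only [mul_assoc]
          _ = v g * (v h * a * star (v h : A)) * star (v g : A) * (v g * v h) := by
              simp only [mul_assoc]
      calc z * a = star (v (g * h) : A) * ((v g : A) * v h * a) := by rw [hz]; simp only [mul_assoc]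
        _ = star (v (g * h) : A) * (v (g * h) * a * star (v (g * h) : A) * (v g * v h)) := by rw [h2]
        _ = (star (v (g * h) : A) * v (g * h)) * a * (star (v (g * h) : A) * (v g * v h)) := by
            simp only [mul_assoc]
        _ = a * z := by rw [hvs, one_mul]
    obtain ⟨c, hc⟩ := hcentre z hzc
    have hvz : (v g : A) * v h = v (g * h) * z := by
      rw [hz, ← mul_assoc, hvs', one_mul]
    have hzz : z * star z = 1 := by
      rw [hz]
      simp only [star_mul, star_star]
      calc star (v (g * h) : A) * (v g * v h) * (star (v h : A) * star (v g : A) * v (g * h))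
          = star (v (g * h) : A) * (v g * (v h * star (v h : A)) * star (v g : A)) * v (g * h) := by
            simp only [mul_assoc]
        _ = 1 := by rw [hvs', mul_one, hvs', mul_one, hvs]
    rcases subsingleton_or_nontrivial A with hsub | hnt
    · exact ⟨1, Subsingleton.elim _ _, by simp⟩
    refine ⟨c, ?_, ?_⟩
    · rw [hvz, hc, Algebra.algebraMap_eq_smul_one, mul_smul_comm, mul_one]
    · have h3 : algebraMap ℂ A (c * star c) = algebraMap ℂ A 1 := by
        rw [map_mul, map_one, ← hzz, hc, algebraMap_star_comm]
      exact (algebraMap ℂ A).injective h3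
  -- the cocycle
  have hu : ∀ g, x g * star (w g) ∈ unitary B := by
    intro g
    rw [Unitary.mem_iff]
    constructor
    · simp only [star_mul, star_star]
      calc w g * star (x g) * (x g * star (w g)) = w g * (star (x g) * x g) * star (w g) := by
            simp only [mul_assoc]
        _ = 1 := by rw [hxs, mul_one, hws']
    · simp only [star_mul, star_star]
      calc x g * star (w g) * (w g * star (x g)) = x g * (star (w g) * w g) * star (x g) := by
            simp only [mul_assoc]
        _ = 1 := by rw [hws, mul_one, hxs']
  refine ⟨Φ, fun g => ⟨x g * star (w g), hu g⟩, ?_, ?_⟩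
  · intro g h
    show x (g * h) * star (w (g * h)) = x g * star (w g) * β g (x h * star (w h))
    rw [hβ]
    obtain ⟨c, hc, hcc⟩ := hscal g h
    have hx : x g * x h = c • x (g * h) := by
      simp only [x]; rw [← map_mul, hc, map_smul]
    have hw : w g * w h = c • w (g * h) := by
      simp only [w]; rw [← map_mul, hc, map_smul]
    calc x (g * h) * star (w (g * h)) = (c * star c) • (x (g * h) * star (w (g * h))) := by
          rw [hcc, one_smul]
      _ = (c • x (g * h)) * star (c • w (g * h)) := by
          rw [star_smul, smul_mul_smul_comm]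
      _ = x g * x h * star (w g * w h) := by rw [hx, hw]
      _ = x g * (star (w g) * w g) * (x h * star (w h)) * star (w g) := by
          rw [hws, mul_one, star_mul]; simp only [mul_assoc]
      _ = x g * star (w g) * (w g * (x h * star (w h)) * star (w g)) := by simp only [mul_assoc]
  · intro g a
    show Φ (α g a) = x g * star (w g) * β g (Φ a) * star (x g * star (w g))
    rw [hβ, hv, map_mul, map_mul, map_star, star_mul, star_star]
    calc Φ (v g) * Φ a * star (Φ (v g))
        = x g * (star (w g) * w g) * Φ a * (star (w g) * w g) * star (x g) := by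
          rw [hws, mul_one, mul_one]
      _ = x g * star (w g) * (w g * Φ a * star (w g)) * (w g * star (x g)) := by
          simp only [mul_assoc]

end Vale.Agent.Results.P095.InnerActions
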